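import Mathlib
import Vale.Agent.P013.FewSmallPrimes

namespace Vale.Agent.Results.P013.FewSmallPrimes

/-- Jacobsthal bound with quadratic growth for integers with few small prime divisors. -/
theorem result : ∀ (n : ℕ) (S : Finset ℕ), n ≠ 0 → S ⊆ n.primeFactors →
    (S.card + 1) * 2 ^ S.card ≤ n.primeFactors.card →
    ∑ p ∈ n.primeFactors \ S, (1 : ℝ) / p ≤ 1 / 2 →
    ∀ a : ℤ, ∃ i : ℕ, i < 5 * n.primeFactors.card ^ 2 ∧ Int.gcd (a + i) n = 1 :=
  fun n S hn hS hs hL a => Vale.Agent.P013.exists_coprime n hn S hS hs hL a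

end Vale.Agent.Results.P013.FewSmallPrimes
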